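import Crest.Agent.X212.Bor5.Th
import Crest.Agent.X212.Rod53.Bnd
import Crest.Agent.X212.Rod53.Sym
import Crest.Agent.X212.Nv5.Cyl

-- ▼ part X212/Cut19/Std
section

/-!
# Row 212, layer GEO (helper19): toric caps and their necks

* `rd ρ t = ρ + exp (-t)` : the radii; `cW hv c ρ a` : the toric manifold of `v`, oriented by `-oT`, as a cap;
* `AR T v Y c ρ` : a neck over half circles, directed inwards; `AR.ki` : the incoming end of the cap;
* `em T p q v' v` : the embedding of the toric manifold in a rod manifold.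
-/

set_option autoImplicit false
set_option linter.unusedSectionVars false

open Set Filter Topology Function Metric
open scoped ContDiff Manifold
open Crest.Agent.R208.F (Ext)
open Crest.Agent.X212.Bor5.T Crest.Agent.X212.Orx52 Crest.Agent.X212.Rod53
open Crest.Agent.X212.Cyl58 (TP TIso cylT IsOE)
open Crest.Agent.X212.Int54 (Ori SameOn)
open Crest.Agent.X212.M (Mf)

noncomputable section

namespace Crest.Agent.X212.Cut19

/-- the radii -/
def rd (ρ t : ℝ) : ℝ := ρ + Real.exp (-t)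

section rd

variable {ρ s t a : ℝ}

theorem lt_rd (ρ t : ℝ) : ρ < rd ρ t := lt_add_of_pos_right _ (Real.exp_pos _)

theorem rd_lt : rd ρ s < rd ρ t ↔ t < s := by simp [rd]

theorem rd_le : rd ρ s ≤ rd ρ t ↔ t ≤ s := by simp [rd]

theorem rd_log (h : ρ < s) : rd ρ (-Real.log (s - ρ)) = s := by
  rw [rd, neg_neg, Real.exp_log (sub_pos.2 h), add_sub_cancel]

theorem isOE_rd (ρ : ℝ) : IsOE 𝓘(ℝ, ℝ) 𝓘(ℝ, ℝ) (rd ρ) :=
  ⟨fun _ _ e => le_antisymm (rd_le.1 e.ge) (rd_le.1 e.le), fun t =>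
    Cyl58.ld_of_inverse (g := fun s => -Real.log (s - ρ)) isOpen_univ isOpen_Ioi
      (ContDiff.contMDiff (by unfold rd; fun_prop)).contMDiffOn
      (fun s hs => ((contDiffAt_id.sub contDiffAt_const).log (sub_pos.2 hs).ne').neg.contMDiffAt.contMDiffWithinAt)
      (fun s _ => lt_rd ρ s) (fun _ _ => mem_univ _) (fun s _ => by simp [rd]) (fun _ => rd_log) (mem_univ t)⟩

theorem rd_Iio : rd ρ '' Iio a = Ioi (rd ρ a) := by
  ext s
  refine ⟨fun ⟨t, h, e⟩ => e ▸ rd_lt.2 h, fun h => ?_⟩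
  have k := rd_log ((lt_rd ρ a).trans h)
  exact ⟨_, rd_lt.1 (k.symm ▸ h), k⟩

theorem rd_Ioi : rd ρ '' Ioi a = Ioo ρ (rd ρ a) := by
  ext s
  refine ⟨fun ⟨t, h, e⟩ => e ▸ ⟨lt_rd ρ t, rd_lt.2 h⟩, fun h => ?_⟩
  have k := rd_log h.1
  exact ⟨_, rd_lt.1 (k.symm ▸ h.2), k⟩

theorem rd_univ : rd ρ '' univ = Ioi ρ :=
  Set.ext fun _ => ⟨fun ⟨t, _, e⟩ => e ▸ lt_rd ρ t, fun h => ⟨_, trivial, rd_log h⟩⟩

/-- the time of the radius `s`, cut off at `a` -/
def ct (ρ a s : ℝ) : ℝ := -Real.log (max (s - ρ) (Real.exp (-a)))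

theorem max_pos (ρ a s : ℝ) : 0 < max (s - ρ) (Real.exp (-a)) := lt_max_of_lt_right (Real.exp_pos _)

theorem continuous_ct (ρ a : ℝ) : Continuous (ct ρ a) :=
  (Continuous.log (by fun_prop) fun s => (max_pos ρ a s).ne').neg

theorem lt_ct (h : t < a) : t < ct ρ a s ↔ s < rd ρ t := by
  rw [ct, lt_neg, Real.log_lt_iff_lt_exp (max_pos ρ a s), max_lt_iff, sub_lt_iff_lt_add', rd,
    and_iff_left (Real.exp_lt_exp.2 (neg_lt_neg h))]

theorem ct_lt (h : t ≤ a) : ct ρ a s < t ↔ rd ρ t < s := by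
  rw [ct, neg_lt, Real.lt_log_iff_exp_lt (max_pos ρ a s), lt_max_iff, lt_sub_iff_add_lt', rd,
    or_iff_left (Real.exp_le_exp.2 (neg_le_neg h)).not_gt]

theorem ct_le (ρ a s : ℝ) : ct ρ a s ≤ a := by
  rw [ct, neg_le, Real.le_log_iff_exp_le (max_pos ρ a s)]
  exact le_max_right _ _

theorem ct_rd (h : t ≤ a) : ct ρ a (rd ρ t) = t := by
  rw [ct, rd, add_sub_cancel_left, max_eq_left (Real.exp_le_exp.2 (neg_le_neg h)), Real.log_exp, neg_neg]

end rd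

variable {EN HN : Type} [NormedAddCommGroup EN] [NormedSpace ℝ EN] [FiniteDimensional ℝ EN]
  [TopologicalSpace HN] {IN : ModelWithCorners ℝ EN HN} [IN.Boundaryless]
  {N : Type} [TopologicalSpace N] [ChartedSpace HN N] [IsManifold IN ∞ N] [T2Space N]
  {v v' : ℝ → Z2} {a b p q : Z2} {c ρ : ℝ}

theorem cont_rr (v : ℝ → Z2) (c : ℝ) : Continuous (torT.rr v c) := by
  have h : Continuous (torT.yy v) := continuousOn_univ.1
    (torT.continuousOn_yy.mono fun x _ => tor_torT v x)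
  exact (((torT.continuous_time.sub continuous_const).pow 2).add (h.pow 2)).sqrt

theorem ori_tor : OriOn IT torT.Ex (-oT) := (oriOn ori_oT _).neg

/-- the toric manifold as a cap; the time is literal on `t < a` -/
def cT (hv : Loc v) (c ρ a : ℝ) : TP E4 where
  P := torT.pcX v
  sc := torT.secondCountable hv
  ne := ⟨torT.ext v ((1, 1), 0)⟩
  τ x := ct ρ a (torT.rr v c x)
  cont := (continuous_ct ρ a).comp (cont_rr v c)
  prop A _ := (torT.isCompact_disc (c := c) isClosed_Iic (R := rd ρ (min A a - 1)) (fun _ h => h)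
    fun x _ => hv x).of_isClosed_subset (isClosed_Icc.preimage ((continuous_ct ρ a).comp (cont_rr v c)))
    fun x hx => ⟨tor_torT v x, ((lt_ct ((sub_one_lt _).trans_le (min_le_right _ _))).1
      ((sub_one_lt _).trans_le ((min_le_left _ _).trans hx.1))).le⟩

/-- the orientation of the toric manifold -/
abbrev oc (hv : Loc v) : X torT v → Ext E4 := oX hv ori_tor

/-- the oriented cap -/
def cW (hv : Loc v) (c ρ a : ℝ) : W4 where
  X := cT hv c ρ a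
  mE := borel _
  bE := @BorelSpace.mk _ _ (borel _) rfl
  ms := borel _
  bs := @BorelSpace.mk _ _ (borel _) rfl
  con := torT.connectedSpace torT.isPreconnected_Ex
  o := oc hv
  ori := (oX_spec hv ori_tor).ori

/-- a neck over half circles, directed inwards -/
structure AR (T : Tb IN N) (v : ℝ → Z2) (Y : Mf 3) (c ρ : ℝ) where
  j : Y.M × ℝ → X T v
  oe : IsOE (Y.I.prod 𝓘(ℝ, ℝ)) (𝓡 4) j
  img : ∀ S, j '' (univ ×ˢ S) = T.disc v c (rd ρ '' S)

namespace AR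

variable {T : Tb IN N} {Y : Mf 3} (A : AR T v Y c ρ)

theorem mem (x : Y.M × ℝ) : A.j x ∈ T.tor v ∧ T.rr v c (A.j x) = rd ρ x.2 := by
  obtain ⟨h, _, rfl, e⟩ := (A.img {x.2}).subset ⟨x, ⟨mem_univ _, rfl⟩, rfl⟩
  exact ⟨h, e.symm⟩

theorem j_mem {S : Set ℝ} {x : Y.M × ℝ} : A.j x ∈ T.disc v c S ↔ rd ρ x.2 ∈ S := by
  rw [T.mem_disc, (A.mem x).2, and_iff_right (A.mem x).1]

theorem surj {y : X T v} (h : y ∈ T.tor v) (k : ρ < T.rr v c y) : ∃ x, A.j x = y :=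
  ((A.img univ).superset ⟨h, rd_univ.superset k⟩).imp fun _ => And.right

end AR

/-- the incoming end of the cap -/
def AR.ki {Y : O3} (A : AR torT v Y.Y c ρ) (hv : Loc v) (a : ℝ) : TIso Y.cyl (cW hv c ρ a).X (Iio a) :=
  have k : ∀ x : Y.Y.M × ℝ, x.2 < a → ct ρ a (torT.rr v c (A.j x)) = x.2 := fun x h => by
    rw [(A.mem x).2, ct_rd h.le]
  TIso.mk' isOpen_Iio A.j (fun x _ => A.oe.loc x) (fun _ _ _ _ e => A.oe.inj e) k fun y hy => by
    have h := (ct_lt le_rfl).1 hy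
    obtain ⟨x, rfl⟩ := A.surj (tor_torT v y) ((lt_rd ρ a).trans h)
    exact ⟨x, rd_lt.1 ((A.mem x).2 ▸ h), rfl⟩

theorem AR.ki_apply {Y : O3} (A : AR torT v Y.Y c ρ) (hv : Loc v) (a : ℝ) (x : Y.Y.M × ℝ) :
    A.ki hv a x = A.j x := rfl

theorem arc (h0 : 0 ≤ ρ) (h1 : Iio (c - ρ) ⊆ Jr v a) (h2 : Ioi (c + ρ) ⊆ Jr v b) : Tb.Arc v a b c (rd ρ) :=
  ⟨isOE_rd ρ, fun s => h0.trans_lt (lt_rd ρ s), fun s => h1 (sub_lt_sub_left (lt_rd ρ s) c),
    fun s => h2 (add_lt_add_right (lt_rd ρ s) c)⟩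

/-- the `S¹ × S²` neck -/
def rA (T : Tb IN N) (hu : Uni a b) (A : Tb.Arc v a a c (rd ρ)) : AR T v mR c ρ :=
  ⟨T.rb v hu c (rd ρ), T.isOE_rb hu A, T.image_rb hu A⟩

/-- the `S³` neck -/
def sA (T : Tb IN N) (hu : Uni a b) (A : Tb.Arc v a b c (rd ρ)) : AR T v mS c ρ :=
  ⟨T.sb v hu c (rd ρ), T.isOE_sb hu A, T.image_sb hu A⟩

theorem exists_o {Y : Mf 3} [ConnectedSpace Y.M] (hY : ∃ o, Ori Y.I (M := Y.M) o) {T : Tb IN N} (A : AR T v Y c ρ)
    {O : X T v → Ext E4} (hO : Ori (𝓡 4) O) :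
    ∃ o, Ori Y.I (M := Y.M) o ∧ Pos (Y.I.prod 𝓘(ℝ, ℝ)) (𝓡 4) A.j univ (pr o oR) O := by
  obtain ⟨o, ho⟩ := hY
  rcases pos_or isPreconnected_univ (oriOn (ori_pr ho ori_oR) univ) (oriOn hO univ) (fun y _ => A.oe.loc y)
    (mapsTo_univ _ _) with h | h
  exacts [⟨o, ho, h⟩, ⟨-o, ori_neg ho, (pr_neg_left o oR).symm ▸ pos_neg_left.2 h⟩]

theorem ori_mR : ∃ o, Ori mR.I (M := mR.M) o :=
  (exists_ori_sphere (V := E3) (n := 2) one_lt_two).elim fun _ h => ⟨_, ori_pr ori_oC h⟩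

theorem ori_mS : ∃ o, Ori mS.I (M := mS.M) o := exists_ori_sphere (V := E4) (n := 3) (by norm_num)

/-! ### the embedding -/

variable (T : Tb IN N)

theorem tc (hu : Uni p q) : TC torT T (T.τ ∘ gl p q) p q :=
  ⟨hu.lh.ne, fun _ h => (ld_gl hu ((torT.τ_mem (w := _)).1 h)).comp _ _ (T.ld _),
    fun _ h => T.τ_mem.2 (gl_ne.2 ((torT.τ_mem (w := _)).1 h)), fun _ _ => rfl, fun y _ h => (h ⟨y, rfl⟩).elim⟩

variable (p q v' v) in
/-- the toric manifold of `v'` in the rod manifold of `v` -/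
def em : X torT v' → X T v := fg torT T (T.τ ∘ gl p q) p q v' v

/-! ### words -/

/-- vertices at most at the times `0`, `10`, `20` -/
def sw (x₀ x₁ x₂ x₃ : Z2) (n : ℤ) : Z2 := if n < 0 then x₀ else if n < 10 then x₁ else if n < 20 then x₂ else x₃

theorem isWd_sw {x₀ x₁ x₂ x₃ : Z2} (p₀ : ∃ y, Uni x₀ y) (p₁ : ∃ y, Uni x₁ y) (p₂ : ∃ y, Uni x₂ y) (p₃ : ∃ y, Uni x₃ y)
    (s₁ : PM x₀ x₁ ∨ Uni x₀ x₁) (s₂ : PM x₁ x₂ ∨ Uni x₁ x₂) (s₃ : PM x₂ x₃ ∨ Uni x₂ x₃) : IsWd (sw x₀ x₁ x₂ x₃) := by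
  refine ⟨fun n => ?_, fun n => ?_⟩ <;> unfold sw <;> split_ifs <;> first | assumption | omega | exact .inl (PM.refl _)

/-- the word of the plumbing -/
abbrev wN : ℤ → Z2 := sw (1, 0) (1, 1) (0, 1) (1, 0)

/-- the word of `S¹ × B³` -/
abbrev wB : ℤ → Z2 := sw (1, 0) (1, 0) (1, 0) (1, 0)

theorem u10 : Uni (1, 0) (0, 1) := .inl rfl

theorem isN : IsWd wN := isWd_sw ⟨(0, 1), .inl rfl⟩ ⟨(0, 1), .inl rfl⟩ ⟨(1, 0), .inr rfl⟩ ⟨(0, 1), .inl rfl⟩
  (.inr (.inl rfl)) (.inr (.inl rfl)) (.inr (.inr rfl))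

theorem isB : IsWd wB := isWd_sw ⟨(0, 1), .inl rfl⟩ ⟨(0, 1), .inl rfl⟩ ⟨(0, 1), .inl rfl⟩ ⟨(0, 1), .inl rfl⟩
  (.inl (PM.refl _)) (.inl (PM.refl _)) (.inl (PM.refl _))

theorem arc_sw {x₁ x₂ y : Z2} (h : PM a y) : Tb.Arc (wd (sw a x₁ x₂ a)) y y 10 (rd 12) :=
  arc (by norm_num) ((Iio_subset_Iio (by norm_num)).trans (Iio_subset_Jr (j := -1) fun k hk => by
    rwa [sw, if_pos (by omega)])) ((Ioi_subset_Ioi (by norm_num)).trans (Ioi_subset_Jr (i := 20) fun k hk => by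
    rwa [sw, if_neg (by omega), if_neg (by omega), if_neg (by omega)]))

end Crest.Agent.X212.Cut19
end
end

-- ▼ part X212/Cut19/Cap

/-!
# Row 212, layer GEO (helper19): the two caps of `S² × S¹`

* `nc k h s` : the chart of a timed neck, translated;  `tM hv` : toric manifolds;
* `R0`, `N0` (the plumbing), `B0` (`S¹ × ℝ³`).
-/

set_option autoImplicit false
set_option linter.unusedSectionVars false

open Set Filter Topology Function Metric
open scoped ContDiff Manifold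
open Crest.Agent.R208.F (Ext)
open Crest.Agent.X212.Bor5.T Crest.Agent.X212.Orx52 Crest.Agent.X212.Rod53 Crest.Agent.X212.Geo28
open Crest.Agent.X212.Cyl58 (TP TIso cylT IsOE)
open Crest.Agent.X212.Int54 (Ori SameOn)

noncomputable section

namespace Crest.Agent.X212.Cut19

section nc

variable {W : W4} {A : O3} {J J' : Set ℝ} (k : TIso A.cyl W.X J') (h : TPos k (pr A.o oR) W.o) (s : ℝ)
  (hJ : IsOpen J) (m : ∀ t ∈ J, t + s ∈ J')

/-- the translated chart -/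
def sh : TIso A.cyl (W.X.shift (-s)) J :=
  TIso.mk' hJ (fun p => k (p.1, p.2 + s))
    (fun p hp => ((Nv5.oe_sh A s).loc p).comp _ _ (k.ld (x := (p.1, p.2 + s)) (m _ hp)))
    (fun p q hp hq e => (Nv5.oe_sh A s).inj (k.inj (x := (p.1, p.2 + s)) (y := (q.1, q.2 + s)) (m _ hp) (m _ hq) e))
    (fun p hp => (congrArg (· + -s) (k.tm (p.1, p.2 + s) (m _ hp))).trans (add_neg_cancel_right _ _)) fun y hy => by
      obtain ⟨x, h1, h2⟩ := k.surj (y := y) (neg_add_cancel_right (W.X.τ y) s ▸ m _ hy)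
      exact ⟨(x.1, x.2 + -s), (congrArg (· + -s) h1).symm.subst (motive := (· ∈ J)) hy,
        (congrArg (fun t => k (x.1, t)) (neg_add_cancel_right _ _)).trans h2⟩

include h in
theorem tpos_sh : TPos (sh k s hJ m) (pr A.o oR) W.o :=
  have e : Pos A.cyl.P.I W.X.P.I (k ∘ fun p : A.cyl.P.M => (p.1, p.2 + s)) (A.cyl.τ ⁻¹' J) (pr A.o oR) W.o :=
    Pos.comp h ((Nv5.pos_sh A s).mono (subset_univ _))
      (fun _ => k.ld) (fun p _ => (Nv5.oe_sh A s).loc p) fun _ hp => m _ hp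
  e

/-- the chart of a timed neck -/
def nc : Nc A (m4 W) J where
  k := (sh k s hJ m).φ
  tm x := W.X.τ x - s
  cont := W.X.cont.sub continuous_const
  src := (sh k s hJ m).src.trans (Set.ext fun _ => ⟨fun h => ⟨trivial, h⟩, And.right⟩)
  tgt := (sh k s hJ m).tgt
  tmk x hx := (sh k s hJ m).tm x ((sh k s hJ m).src.le hx)
  pos := Pos.mono (tpos_sh k h s hJ m) (sh k s hJ m).src.le

theorem nc_k (p : A.Y.M × ℝ) : (nc k h s hJ m).k p = k (p.1, p.2 + s) := rfl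

theorem nc_tm (x : W.M) : (nc k h s hJ m).tm x = W.X.τ x - s := rfl

end nc

/-- the toric manifold of a word, oriented by `-oT` -/
abbrev tM {v : ℝ → Z2} (hv : Loc v) : M4 := m4 (cW hv 10 12 5)

/-- the neck of the plumbing -/
abbrev aN : AR torT (wd wN) mR 10 12 := rA torT u10 (arc_sw (PM.refl _))

/-- the neck of `S¹ × ℝ³` -/
abbrev aB : AR torT (wd wB) mR 10 12 := rA torT u10 (arc_sw (PM.refl _))

theorem exN : ∃ o, Ori mR.I (M := mR.M) o ∧ Pos (mR.I.prod 𝓘(ℝ, ℝ)) (𝓡 4) aN.j univ (pr o oR) (oc isN.loc) :=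
  exists_o ori_mR aN (oX_spec isN.loc ori_tor).ori

/-- `S¹ × S²` -/
def R0 : R3 where
  Y := mR
  o := exN.choose
  ori := exN.choose_spec.1
  φ := Diffeomorph.prodComm _ _ _ _ _

theorem posN : Pos (mR.I.prod 𝓘(ℝ, ℝ)) (𝓡 4) aN.j univ (pr R0.o oR) (oc isN.loc) := exN.choose_spec.2

theorem ag_sw {x₀ x₁ x₂ x₃ y₁ y₂ : Z2} {t : ℝ} (h : 12 < |t - 10|) :
    t ∈ interior {x | wd (sw x₀ x₁ x₂ x₃) x = wd (sw x₀ y₁ y₂ x₃) x} := by
  refine interior_maximal (t := {x | 12 < |x - 10|}) (fun x (hx : 12 < |x - 10|) => ?_) (isOpen_out 10 12) h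
  rcases lt_abs.1 hx with k | k
  · exact wd_congr (i := 20) (j := ⌊x⌋) (fun n a _ => by simp only [sw, if_neg (by omega : ¬n < 0),
      if_neg (by omega : ¬n < 10), if_neg (by omega : ¬n < 20)]) ⟨by push_cast; linarith, Int.lt_floor_add_one x⟩
  · exact wd_congr (i := ⌊x⌋ - 1) (j := -1) (fun n _ a => by simp only [sw, if_pos (by omega : n < 0)])
      ⟨by push_cast; linarith [Int.floor_le x], by push_cast; linarith⟩

theorem chg_j (p : mR.M × ℝ) : torT.chgPD (wd wN) (wd wB) (aN.j p) = aB.j p := by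
  have A : Tb.Arc (wd wN) (1, 0) (1, 0) 10 (rd 12) := arc_sw (PM.refl _)
  refine (TE.refl torT).fn_rod u10 (A.mem_Ur p) ?_
  have k := torT.mem_ag_out (c := 10) (r := 12) (v := wd wN) (v' := wd wB) (fun _ => ag_sw) (p := aN.j p)
    fun e => (lt_rd 12 p.2).not_ge (aN.j_mem.1 e)
  exact k.imp (torT.eta_rod u10 (A.mem_Ur p)).1 fun e => torT.time_rod u10 (A.mem_Ur p) ▸ e

theorem posB : Pos (mR.I.prod 𝓘(ℝ, ℝ)) (𝓡 4) aB.j univ (pr R0.o oR) (oc isB.loc) :=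
  ((((oX_spec isN.loc ori_tor).fn (oX_spec isB.loc ori_tor) (TE.refl _) (pos_id.2 ori_tor.same)).comp posN
    (fun _ => (TE.refl torT).ld_fn) (fun p _ => aN.oe.loc p) fun p _ => torT.mem_ag_out (c := 10) (r := 12)
      (fun _ => ag_sw) fun e => (lt_rd 12 p.2).not_ge (aN.j_mem.1 e)).congr isOpen_univ fun p _ => (chg_j p).symm)

variable {v : ℝ → Z2} {Y : O3} (hv : Loc v) (A : AR torT v Y.Y 10 12)
  (h : Pos (IY Y) (𝓡 4) A.j univ (pr Y.o oR) (oc hv))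

/-- the end of a toric cap -/
def kc : Nc Y (tM hv) (Iio 0) :=
  nc (A.ki hv 5) (h.mono (subset_univ _)) 4 isOpen_Iio fun t (k : t < 0) => show t + 4 < 5 by linarith

theorem kc_k (p : Y.Y.M × ℝ) : (kc hv A h).k p = A.j (p.1, p.2 + 4) := rfl

theorem kc_tm (x : X torT v) : (kc hv A h).tm x = ct 12 5 (torT.rr v 10 x) - 4 := rfl

/-- a toric cap -/
abbrev cap : Pm (some Y) none none :=
  En2.pm (a := some Y) (b := none) ⟨kc hv A h, (), fun _ _ => le_rfl, fun T =>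
    ((cW hv 10 12 5).X.prop (4 - T) 5).of_isClosed_subset
      ((isClosed_le continuous_const (kc hv A h).cont).inter (isClosed_const (p := (0 : ℝ) ≤ T ∧ (0 : ℝ) ≤ T)))
      fun _ k => ⟨by linarith [show -T ≤ _ - 4 from k.1], ct_le _ _ _⟩⟩

/-- the plumbing -/
abbrev N0 : Pm (some R0.toO3) none none := cap (Y := R0.toO3) isN.loc aN posN

/-- `S¹ × ℝ³` -/
abbrev B0 : Pm (some R0.toO3) none none := cap (Y := R0.toO3) isB.loc aB posB

end Crest.Agent.X212.Cut19
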