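import Crest.Agent.X212.Sw88.Ridx
import Crest.Agent.X212.Flo2.Fst
import Crest.Agent.X212.Flo2.Fsm
import Crest.Agent.X212.Flo2.Seq
import Crest.Agent.X212.Flo2.An1
import Crest.Agent.X212.Flo2.An2
import Crest.Agent.X212.Flo2.An3
import Crest.Agent.X212.Flo2.An4
import Crest.Agent.X212.Flo2.An5
import Crest.Agent.X212.Cut19.Ln
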